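import Vale.Agent.P032.Plane.NoFive

/-!
P032: five open sets without unit distances never have dense union, so no five-colouring of the
plane has classes with the property of Baire; and none has Lebesgue measurable classes either.
-/

namespace Vale.Agent.Results.P032.BairePropertySix

open Set Filter MeasureTheory Metric Topology

/-- Five open unit-free sets never have dense union; the plane has no proper five-colouring whose
classes have the property of Baire, and none whose classes are Lebesgue measurable. -/
theorem result :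
    (∀ O : Fin 5 → Set (EuclideanSpace ℝ (Fin 2)), (∀ i, IsOpen (O i)) →
      (∀ i, ∀ x ∈ O i, ∀ y ∈ O i, dist x y ≠ 1) → ¬ Dense (⋃ i, O i)) ∧
    (¬ ∃ c : EuclideanSpace ℝ (Fin 2) → Fin 5,
      (∀ x y, dist x y = 1 → c x ≠ c y) ∧ ∀ i, BaireMeasurableSet {x | c x = i}) ∧
    ¬ ∃ c : EuclideanSpace ℝ (Fin 2) → Fin 5,
      (∀ x y, dist x y = 1 → c x ≠ c y) ∧ ∀ i, NullMeasurableSet {x | c x = i} volume := by
  let e := Complex.orthonormalBasisOneI.repr
  have hfree : ∀ c : EuclideanSpace ℝ (Fin 2) → Fin 5, (∀ x y, dist x y = 1 → c x ≠ c y) →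
      ∀ z w : ℂ, dist z w = 1 → c (e z) ≠ c (e w) :=
    fun c hc z w h => hc _ _ (by rw [e.isometry.dist_eq]; exact h)
  refine ⟨fun O hO hO' hd => ?_, ?_, ?_⟩
  · refine Vale.Agent.P032.no_five_open_dense (fun i => e ⁻¹' O i)
      (fun i => (hO i).preimage e.continuous)
      (fun i x hx y hy h => hO' i _ hx _ hy (by rw [e.isometry.dist_eq]; exact h)) ?_
    have := hd.preimage e.toHomeomorph.isOpenMap
    rwa [preimage_iUnion] at this
  · rintro ⟨c, hc, hb⟩
    obtain ⟨C⟩ := Vale.Agent.P032.exists_cover (f := fun z => c (e z)) (hfree c hc)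
      (fun i => (hb i).preimage e.continuous e.toHomeomorph.isOpenMap)
    exact C.impossible
  · rintro ⟨c, hc, hm⟩
    exact Vale.Agent.P032.NoFive.no_five (fun z => c (e z)) (hfree c hc) fun i =>
      (hm i).preimage e.measurePreserving.quasiMeasurePreserving

end Vale.Agent.Results.P032.BairePropertySix
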